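import Vale.Agent.P167.N.Kit
import Vale.Agent.P167.N.QN.Fresh
import Vale.Agent.P167.N.H640.FzL
import Vale.Agent.P167.H476.Q.Law

/-! port of Vale.Agent.P167.H476.Q.Law, domains with at most `m` islands -/

set_option autoImplicit false

set_option autoImplicit false

set_option linter.unusedVariables false

set_option linter.unusedSectionVars false

namespace Vale.Agent.P167.N.H476.Q

open Vale.Agent.P167.H476.Q Vale.Agent.P167.H476

open Finset Vale.Agent.P167 Vale.Agent.P167.FK Vale.Agent.P167.FKA Relation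

open Vale.Agent.P145.FB (PStep PConn)

open Vale.Agent.P167.H871 (Pt)

open Vale.Agent.P167.H318 (st Adj hit)

open Vale.Agent.P167.H558 (StopSet Past)

open Vale.Agent.P167.H259 (f_markov f_fkg f_comp f_comp2)

open Vale.Agent.P167.QN (Ann mem_Ann FreshP FreshD fresh_both)

variable {B : Finset Pt} {ω ω' : Cfg} {e : Ed} {S : Set Pt}

variable {B' : Set Pt} {h : ℕ} {ec ea : Ed} {D : Finset Pt} {η : Cfg}

/-- **The law part of the middle strand lemma**, for one pair of strands. -/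
theorem mev_le {Q α C : ℝ} (hQ : Kit Q) {m : ℕ} (hA : N.QN.FrB Q α C m) {r R : ℤ} (hr : 1 ≤ r)
    (hrR : r ≤ R) (hη : Good η) (hDB : D ⊆ B) (hfz : ∀ x ∈ B', N.QC.Fz m x R D η) :
    Pr Q D η {ω | Mev B B' h r R D ec ea ω} ≤
      C * ((r : ℝ) / R) ^ α * Pr Q D η {ω | Stp B B' h ec ea ω} := by
  have hQ_pos := hQ.pos
  classical
  have hQ0 : 0 < Q := by linarith
  by_cases h1 : tlv ec ∉ B
  swap
  · unfold Pr
    rw [← Ex_mul_left]
    refine Ex_mono hQ0 fun S' _ => ?_
    rw [Set.indicator_of_notMem (show cf D η S' ∉ {ω | Mev B B' h r R D ec ea ω} from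
      fun hm => h1 hm.1.1), Set.indicator_of_notMem (show cf D η S' ∉ {ω | Stp B B' h ec ea ω} from
      fun hm => h1 hm.1), mul_zero]
  by_cases h2 : tlv ea ∉ B
  swap
  · unfold Pr
    rw [← Ex_mul_left]
    refine Ex_mono hQ0 fun S' _ => ?_
    rw [Set.indicator_of_notMem (show cf D η S' ∉ {ω | Mev B B' h r R D ec ea ω} from
      fun hm => h2 hm.1.2.1), Set.indicator_of_notMem (show cf D η S' ∉ {ω | Stp B B' h ec ea ω} from
      fun hm => h2 hm.2.1), mul_zero]
  set K : Cfg → Finset Pt := fun ω => rd B B' h ec ea (hat D η ω) ∩ D with hK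
  have hhat : ∀ ω ω' : Cfg, (∀ v ∈ K ω, ω' v = ω v) →
      ∀ v ∈ rd B B' h ec ea (hat D η ω), hat D η ω' v = hat D η ω v := by
    intro ω ω' hh v hv
    unfold hat
    split_ifs with h3
    · exact hh v (Finset.mem_inter.2 ⟨hv, h3⟩)
    · rfl
  have hst : StopSet K := by
    intro ω ω' hh
    simp only [hK]
    rw [(rd_congr h1 h2 (hhat ω ω' hh)).1]
  set G : Cfg → ℝ := fun ω => {ω | Stp B B' h ec ea ω}.indicator 1 (hat D η ω) with hG
  have hGp : Past K G := by
    intro ω ω' hh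
    obtain ⟨-, k2, k3⟩ := rd_congr h1 h2 (hhat ω ω' hh)
    have : Stp B B' h ec ea (hat D η ω') ↔ Stp B B' h ec ea (hat D η ω) := by
      unfold Stp
      rw [k2, k3]
    show ({ω | Stp B B' h ec ea ω}.indicator 1 (hat D η ω') : ℝ) =
      {ω | Stp B B' h ec ea ω}.indicator 1 (hat D η ω)
    simp only [Set.indicator_apply, Set.mem_ofPred_eq, this, Pi.one_apply]
  set F : Cfg → ℝ := fun ω => {ω | Mev B B' h r R D ec ea ω}.indicator 1 ω with hF
  have hG0 : ∀ ω, 0 ≤ G ω := fun ω => ind_nonneg _ _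
  have e1 : Pr Q D η {ω | Mev B B' h r R D ec ea ω} = Ex Q D η (fun ω => G ω * F ω) := by
    unfold Pr
    refine Ex_congr fun S' _ => ?_
    simp only [hG, hF, hat_cf]
    by_cases h3 : Stp B B' h ec ea (cf D η S')
    · rw [Set.indicator_of_mem (show cf D η S' ∈ {ω | Stp B B' h ec ea ω} from h3), Pi.one_apply,
        one_mul]
    · rw [Set.indicator_of_notMem (show cf D η S' ∉ {ω | Stp B B' h ec ea ω} from h3), zero_mul,
        Set.indicator_of_notMem (show cf D η S' ∉ {ω | Mev B B' h r R D ec ea ω} from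
          fun hm => h3 hm.1)]
  have e2 : Pr Q D η {ω | Stp B B' h ec ea ω} = Ex Q D η G := by
    unfold Pr
    refine Ex_congr fun S' _ => ?_
    simp only [hG, hat_cf]
  rw [e1, e2, H192.Q.stop_markov hQ0 hη hst hGp fun ω => Finset.inter_subset_right, ← Ex_mul_left]
  refine Ex_mono hQ0 fun S' _ => ?_
  set ω₀ := cf D η S' with hω₀
  rw [mul_comm _ (G ω₀)]
  by_cases hS₀ : Stp B B' h ec ea ω₀
  swap
  · have hG₀ : G ω₀ = 0 := by
      simp only [hG, hω₀, hat_cf]
      exact Set.indicator_of_notMem (by exact hS₀) _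
    rw [hG₀, zero_mul, zero_mul]
  refine mul_le_mul_of_nonneg_left ?_ (hG0 _)
  have hg₀ : Good ω₀ := f_good.1 _ _ _ hη
  have hfz₀ : N.QC.Fz m (tp B B' h ec ea ω₀) R (D \ K ω₀) ω₀ := by
    refine N.H640.fz_sdiff (hfz _ (Nbr_sub hS₀.2.2)) (fun v hv => cf_out hv) fun v hv => ?_
    have hKr : D \ K ω₀ = D \ rd B B' h ec ea ω₀ := by
      simp only [hK, hω₀, hat_cf]
      ext v
      rw [Finset.mem_sdiff, Finset.mem_sdiff, Finset.mem_inter]
      tauto
    rw [hKr]
    have hv' : v ∈ rd B B' h ec ea ω₀ := by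
      have h5 := (Finset.mem_inter.1 hv).1
      rwa [hω₀, hat_cf] at h5
    rcases Finset.mem_union.1 hv' with h5 | h5
    · exact ⟨tlv ec, fun h6 => h1 (hDB h6), N.H640.wc_tr Finset.subset_union_left
        (fun h6 => h1 (hDB h6)) h5⟩
    · exact ⟨tlv ea, fun h6 => h2 (hDB h6), N.H640.wc_tr Finset.subset_union_right
        (fun h6 => h2 (hDB h6)) h5⟩
  refine le_trans ?_ (hA (tp B B' h ec ea ω₀) r R hr hrR (D \ K ω₀) ω₀ hg₀ hfz₀)
  unfold Pr
  refine Ex_mono hQ0 fun T hT => ?_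
  set ω := cf (D \ K ω₀) ω₀ T with hω
  have h6 : ∀ v ∈ K ω₀, ω v = ω₀ v := fun v hv => cf_out fun h3 => (Finset.mem_sdiff.1 h3).2 hv
  have h7 : ∀ v, v ∉ D → ω v = η v := by
    intro v hv
    rw [hω, cf_out fun h3 => hv (Finset.mem_sdiff.1 h3).1, hω₀, cf_out hv]
  have h8 : hat D η ω = ω := by
    funext v
    unfold hat
    split_ifs with h3
    · rfl
    · exact (h7 v h3).symm
  have h9 : hat D η ω₀ = ω₀ := hat_cf _
  obtain ⟨k1, k2, k3⟩ := rd_congr h1 h2 (hhat ω₀ ω h6)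
  rw [h8, h9] at k1 k2 k3
  have hKD : D \ K ω₀ = D \ rd B B' h ec ea ω₀ := by
    simp only [hK]
    rw [h9]
    ext v
    rw [Finset.mem_sdiff, Finset.mem_sdiff, Finset.mem_inter]
    tauto
  show ({ω | Mev B B' h r R D ec ea ω}.indicator 1 ω : ℝ) ≤ _
  by_cases h3 : Mev B B' h r R D ec ea ω
  · have h4 := h3.2
    rw [k1, k2, ← hKD] at h4
    rw [Set.indicator_of_mem (show ω ∈ {ω | Mev B B' h r R D ec ea ω} from h3),
      Set.indicator_of_mem (show ω ∈ {ω | FreshP (tp B B' h ec ea ω₀) r R (D \ K ω₀) ω ∨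
        FreshD (tp B B' h ec ea ω₀) r R (D \ K ω₀) ω} from h4)]
  · rw [Set.indicator_of_notMem (show ω ∉ {ω | Mev B B' h r R D ec ea ω} from h3)]
    exact ind_nonneg _ _

end Vale.Agent.P167.N.H476.Q
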