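import Vale.Agent.P167.N.Kit
import Vale.Agent.P167.N.H476.Q.Law
import Vale.Agent.P167.N.QN.Fresh
import Vale.Agent.P167.H476.Q.Law2

/-! port of Vale.Agent.P167.H476.Q.Law2, domains with at most `m` islands -/

set_option autoImplicit false

set_option autoImplicit false

set_option linter.unusedVariables false

set_option linter.unusedSectionVars false

namespace Vale.Agent.P167.N.H476.Q

open Vale.Agent.P167.H476.Q Vale.Agent.P167.H476

open Finset Vale.Agent.P167 Vale.Agent.P167.FK Vale.Agent.P167.FKA Relation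

open Vale.Agent.P145.FB (PStep PConn)

open Vale.Agent.P167.H871 (Pt)

open Vale.Agent.P167.H318 (st Adj hit)

open Vale.Agent.P167.H558 (StopSet Past)

open Vale.Agent.P167.H259 (f_markov f_fkg f_comp f_comp2)

open Vale.Agent.P167.QN (Ann mem_Ann FreshP FreshD fresh_both)

variable {B : Finset Pt} {B' : Set Pt} {h : ℕ} {ec ea : Ed} {ω : Cfg}

/-- **The middle strand lemma, law part.** -/
theorem mid_law {Q α C : ℝ} (hQ : Kit Q) {m : ℕ} (hC : 0 ≤ C) (hA : N.QN.FrB Q α C m) {r R : ℤ}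
    (hr : 1 ≤ r) (hrR : r ≤ R) (hB : B' ⊆ ↑B) (hB' : ∀ v ∈ B', ∀ w ∈ Bq v R, w ∈ B)
    {D₀ : Finset Pt} {η : Cfg} (hη : Good η) (hfz : ∀ x ∈ B', N.QC.Fz m x R D₀ η) {G : Cfg → ℝ}
    (hG0 : ∀ ω, 0 ≤ G ω) (hG : Ind (D₀ ∩ B) G) :
    Ex Q D₀ η (fun ω => G ω *
      {ω | ∃ ec ea, Mev B B' h r R (D₀ ∩ B) ec ea ω}.indicator 1 ω) ≤
      C * ((r : ℝ) / R) ^ α * Ex Q D₀ η (fun ω => G ω * (En B B' ω : ℝ) ^ 2) := by
  have hQ_pos := hQ.pos
  classical
  have hQ0 : 0 < Q := by linarith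
  have hC0 : 0 ≤ C * ((r : ℝ) / R) ^ α := by
    have h1 : (0 : ℝ) ≤ r := by exact_mod_cast (by omega : 0 ≤ r)
    have h2 : (0 : ℝ) ≤ R := by exact_mod_cast (by omega : 0 ≤ R)
    positivity
  set a := C * ((r : ℝ) / R) ^ α with ha
  set M : Ed → Ed → Cfg → ℝ := fun ec ea ω =>
    {ω | Mev B B' h r R (D₀ ∩ B) ec ea ω}.indicator 1 ω with hM
  set T : Ed → Ed → Cfg → ℝ := fun ec ea ω => {ω | Stp B B' h ec ea ω}.indicator 1 ω with hT
  have hpair : ∀ ec ea, Ex Q D₀ η (fun ω => G ω * M ec ea ω) ≤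
      a * Ex Q D₀ η (fun ω => G ω * T ec ea ω) := by
    intro ec ea
    rw [markov f_markov hQ0 (A := D₀ ∩ B) Finset.inter_subset_left hη hG,
      markov f_markov hQ0 (A := D₀ ∩ B) Finset.inter_subset_left hη hG (F := T ec ea),
      ← Ex_mul_left]
    refine Ex_mono hQ0 fun S' _ => ?_
    have h1 := mev_le (B := B) (B' := B') (h := h) (ec := ec) (ea := ea) (D := D₀ ∩ B) hQ hA hr hrR
      (f_good.1 D₀ η S' hη) Finset.inter_subset_right fun x hx =>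
        N.H640.fz_box (hfz x hx) (hB' x hx) fun v hv => cf_out hv
    calc G (cf D₀ η S') * Ex Q (D₀ ∩ B) (cf D₀ η S') (M ec ea)
        ≤ G (cf D₀ η S') * (a * Ex Q (D₀ ∩ B) (cf D₀ η S') (T ec ea)) :=
          mul_le_mul_of_nonneg_left h1 (hG0 _)
      _ = _ := by ring
  have h1 : ∀ ω, G ω * {ω | ∃ ec ea, Mev B B' h r R (D₀ ∩ B) ec ea ω}.indicator 1 ω ≤
      ∑ ec ∈ E0 B, ∑ ea ∈ E0 B, G ω * M ec ea ω := by
    intro ω
    simp only [← Finset.mul_sum]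
    refine mul_le_mul_of_nonneg_left ?_ (hG0 ω)
    by_cases hm : ∃ ec ea, Mev B B' h r R (D₀ ∩ B) ec ea ω
    · rw [Set.indicator_of_mem (show ω ∈ {ω | ∃ ec ea, Mev B B' h r R (D₀ ∩ B) ec ea ω} from hm)]
      obtain ⟨ec, ea, hm⟩ := hm
      obtain ⟨⟨v1, -⟩, v2, -⟩ := hm.1.vis hB
      have k1 : M ec ea ω = 1 := by
        simp only [hM]
        rw [Set.indicator_of_mem (show ω ∈ {ω | Mev B B' h r R (D₀ ∩ B) ec ea ω} from hm)]
        rfl
      rw [Pi.one_apply, ← k1]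
      refine le_trans ?_ (Finset.single_le_sum (f := fun ec => ∑ ea ∈ E0 B, M ec ea ω)
        (fun i _ => Finset.sum_nonneg fun j _ => ind_nonneg _ _) v1)
      exact Finset.single_le_sum (f := fun ea => M ec ea ω) (fun j _ => ind_nonneg _ _) v2
    · rw [Set.indicator_of_notMem (show ω ∉ {ω | ∃ ec ea, Mev B B' h r R (D₀ ∩ B) ec ea ω} from hm)]
      exact Finset.sum_nonneg fun i _ => Finset.sum_nonneg fun j _ => ind_nonneg _ _
  have h2 : ∀ ω, ∑ ec ∈ E0 B, ∑ ea ∈ E0 B, G ω * T ec ea ω ≤ G ω * (En B B' ω : ℝ) ^ 2 := by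
    intro ω
    simp only [← Finset.mul_sum]
    refine mul_le_mul_of_nonneg_left ?_ (hG0 ω)
    have hle : ∀ ec ea, T ec ea ω ≤
        (if Vale.Agent.P167.H476.Q.Vis B B' ec ω then (1 : ℝ) else 0) * (if Vale.Agent.P167.H476.Q.Vis B B' ea ω then (1 : ℝ) else 0) := by
      intro ec ea
      simp only [hT]
      by_cases hS : Stp B B' h ec ea ω
      · obtain ⟨⟨-, v1⟩, -, v2⟩ := hS.vis hB
        rw [Set.indicator_of_mem (show ω ∈ {ω | Stp B B' h ec ea ω} from hS), if_pos v1, if_pos v2]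
        simp
      · rw [Set.indicator_of_notMem (show ω ∉ {ω | Stp B B' h ec ea ω} from hS)]
        split_ifs <;> norm_num
    have hcard : (En B B' ω : ℝ) = ∑ e ∈ E0 B, if Vale.Agent.P167.H476.Q.Vis B B' e ω then (1 : ℝ) else 0 := by
      unfold En
      rw [Finset.card_filter]
      push_cast
      rfl
    rw [hcard, sq, Finset.sum_mul_sum]
    exact Finset.sum_le_sum fun i _ => Finset.sum_le_sum fun j _ => hle i j
  calc Ex Q D₀ η (fun ω => G ω * {ω | ∃ ec ea, Mev B B' h r R (D₀ ∩ B) ec ea ω}.indicator 1 ω)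
      ≤ Ex Q D₀ η (fun ω => ∑ ec ∈ E0 B, ∑ ea ∈ E0 B, G ω * M ec ea ω) :=
        Ex_mono hQ0 fun S' _ => h1 _
    _ = ∑ ec ∈ E0 B, ∑ ea ∈ E0 B, Ex Q D₀ η (fun ω => G ω * M ec ea ω) := by
        rw [Ex_sum]
        exact Finset.sum_congr rfl fun i _ => Ex_sum _ _
    _ ≤ ∑ ec ∈ E0 B, ∑ ea ∈ E0 B, a * Ex Q D₀ η (fun ω => G ω * T ec ea ω) :=
        Finset.sum_le_sum fun i _ => Finset.sum_le_sum fun j _ => hpair i j
    _ = a * Ex Q D₀ η (fun ω => ∑ ec ∈ E0 B, ∑ ea ∈ E0 B, G ω * T ec ea ω) := by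
        rw [Ex_sum, Finset.mul_sum]
        refine Finset.sum_congr rfl fun i _ => ?_
        rw [Ex_sum, Finset.mul_sum]
    _ ≤ a * Ex Q D₀ η (fun ω => G ω * (En B B' ω : ℝ) ^ 2) :=
        mul_le_mul_of_nonneg_left (Ex_mono hQ0 fun S' _ => h2 _) hC0

end Vale.Agent.P167.N.H476.Q
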