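import Vale.Agent.P167.N.Kit
import Vale.Agent.P167.N.H476.Q.Law2
import Vale.Agent.P167.H476.Q.Fin

/-! port of Vale.Agent.P167.H476.Q.Fin, domains with at most `m` islands -/

set_option autoImplicit false

set_option autoImplicit false

set_option linter.unusedVariables false

set_option linter.unusedSectionVars false

namespace Vale.Agent.P167.N.H476.Q

open Vale.Agent.P167.H476.Q Vale.Agent.P167.H476

open Finset Vale.Agent.P167 Vale.Agent.P167.FK Vale.Agent.P167.FKA Relation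

open Vale.Agent.P145.FB (PStep PConn)

open Vale.Agent.P167.H871 (Pt)

open Vale.Agent.P167.H632 (Ex)

open Vale.Agent.P167.H318 (st Adj hit cnt)

open Vale.Agent.P167.H558 (StopSet Past)

open Vale.Agent.P167.H259 (f_markov f_fkg f_comp f_comp2)

open Vale.Agent.P167.QN (Ann mem_Ann FreshP FreshD fresh_both)

/-- **The middle strand lemma.** `c` = a colour without frozen squares in the box (any colour in the
bulk); `G` does not read the squares of the box. -/
theorem lemma_M {Q α C : ℝ} (hQ : Kit Q) {m : ℕ} (hC : 0 ≤ C) (hA : N.QN.FrB Q α C m)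
    {B : Finset Pt} (hEx : Ex (↑B : Set Pt)) {B' : Set Pt} {h : ℕ} {R : ℤ} (hR : (h : ℤ) + 1 < R)
    (hB' : ∀ v ∈ B', ∀ w ∈ Bq v R, w ∈ B) {D₀ : Finset Pt} {η : Cfg} (hη : Good η) {c : Bool}
    (hc : ∀ v ∈ B, v ∉ D₀ → η v ≠ c) (hfz : ∀ x ∈ B', N.QC.Fz m x R D₀ η)
    {G : Cfg → ℝ} (hG0 : ∀ ω, 0 ≤ G ω) (hG : Ind (D₀ ∩ B) G) :
    Ex Q D₀ η (fun ω => G ω * {ω | ∃ em el er, M3 B B' h em el er ω}.indicator 1 ω) ≤
      C * (((h : ℝ) + 1) / R) ^ α * Ex Q D₀ η (fun ω => G ω * (En B B' ω : ℝ) ^ 2) := by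
  have hQ_pos := hQ.pos
  have hQ0 : 0 < Q := by linarith
  have hBB : B' ⊆ ↑B := fun v hv => hB' v hv v (by rw [H167.Q.mem_Bq]; omega)
  have h1 := mid_law (h := h) hQ hC hA (r := h + 1) (R := R) (by omega) hR.le hBB hB' hη hfz hG0 hG
  push_cast at h1
  refine le_trans (Ex_mono hQ0 fun S' _ => mul_le_mul_of_nonneg_left ?_ (hG0 _)) h1
  by_cases hm : ∃ em el er, M3 B B' h em el er (cf D₀ η S')
  · obtain ⟨em, el, er, hm'⟩ := hm
    have h2 := hm'.mev hEx hR hB' (D₀ := D₀) (c := c) fun v hv hn => by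
      rw [cf_out hn]; exact hc v hv hn
    rw [Set.indicator_of_mem (show cf D₀ η S' ∈ {ω | ∃ em el er, M3 B B' h em el er ω} from
      ⟨em, el, er, hm'⟩), Set.indicator_of_mem (show cf D₀ η S' ∈
      {ω | ∃ ec ea, Mev B B' h (h + 1) R (D₀ ∩ B) ec ea ω} from h2)]
  · rw [Set.indicator_of_notMem (show cf D₀ η S' ∉ {ω | ∃ em el er, M3 B B' h em el er ω} from hm)]
    exact ind_nonneg _ _

end Vale.Agent.P167.N.H476.Q
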