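import Vale.Agent.P167.N.Kit
import Vale.Agent.P167.N.H476.Q.BdLaw
import Vale.Agent.P167.N.QC.Ent
import Vale.Agent.P167.H476.Q.Two

/-! port of Vale.Agent.P167.H476.Q.Two, domains with at most 2 islands -/

set_option autoImplicit false

set_option autoImplicit false

set_option linter.unusedVariables false

set_option linter.unusedSectionVars false

namespace Vale.Agent.P167.N.H476.Q

open Vale.Agent.P167.H476.Q Vale.Agent.P167.H476

open Finset Vale.Agent.P167 Vale.Agent.P167.FK Vale.Agent.P167.FKA Relation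

open Vale.Agent.P145.FB (PStep PConn)

open Vale.Agent.P167.H871 (Pt)

open Vale.Agent.P167.H632 (Ex)

open Vale.Agent.P167.H318 (cnt st Adj hit)

open Vale.Agent.P167.QN (Ann mem_Ann FreshP FreshD fresh_both)

open Vale.Agent.P167.H166 (bxx mem_bxx mem_Bq)

open Vale.Agent.P167.H161 (Conn BStep)

open Vale.Agent.P167.H174.CT (Frz1 ex_box en_le)

/-- **Two strands and the boundary, with rate.** -/
theorem two_law {Q : ℝ} (hQ : Kit Q) (hRSW : RSW Q) : ∃ (κ : ℤ) (α C : ℝ), 4 ≤ κ ∧ 0 < α ∧ 0 < C ∧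
    ∀ (z : Pt) (r R' R : ℤ) (h : ℕ), 1 ≤ r → κ * r ≤ R' → R' < R →
    ∀ (D : Finset Pt) (η : Cfg), Good η → ∀ (c : Bool) (P : Finset Pt),
    Frz1 D η z R' R c P → N.QC.Fz 2 z (R - 1) D η → ∀ G : Cfg → ℝ, (∀ ω, 0 ≤ G ω) →
    Ind (D ∩ Bq z R) G →
      FK.Ex Q D η (fun ω => G ω * (T2 D c z r R h).indicator 1 ω) ≤
        C * 4 ^ P.card * (((h : ℝ) + 1) / R) ^ α * FK.Ex Q D η G := by
  have hQ_pos := hQ.pos
  classical
  have hQ0 : 0 < Q := by linarith
  obtain ⟨α, Ca, hα, hCa, hdec⟩ := N.QN.frB hQ (N.QC.ut hQ) 2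
  obtain ⟨κ, hκ, hent⟩ := QC.ent_two hQ hRSW
  refine ⟨κ, α, 4 * Ca * 4 ^ α + 4 ^ α, hκ, hα, by positivity, ?_⟩
  intro z r R' R h hr hκR hR D η hη c P hF hFz G hG0 hG
  have hR4 : 4 * r ≤ R' := le_trans (mul_le_mul_of_nonneg_right hκ (by omega)) hκR
  have hR0 : (0 : ℝ) < R := by exact_mod_cast (by omega : 0 < R)
  have hE0 : 0 ≤ FK.Ex Q D η G := Ex_nonneg hQ0 fun _ _ => hG0 _
  have hx0 : 0 ≤ ((h : ℝ) + 1) / R := by positivity
  have h2P : (1 : ℝ) ≤ 4 ^ P.card := one_le_pow₀ (by norm_num)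
  set l : ℤ := R - r - 1 with hl
  by_cases hbig : (h : ℤ) + 1 < l
  · have hB' : ∀ v ∈ (↑(Bq z r) : Set Pt), ∀ w ∈ Bq v l, w ∈ Bq z R := by
      intro v hv w hw
      rw [Finset.mem_coe, mem_Bq] at hv
      rw [mem_Bq] at hw ⊢
      omega
    have hBB : (↑(Bq z r) : Set Pt) ⊆ ↑(Bq z R) := fun v hv =>
      Finset.mem_coe.2 (hB' v hv v (by rw [mem_Bq]; omega))
    set S₀ : Finset Pt := if c then D else ∅ with hS₀
    have hS₀D : S₀ ⊆ D := by
      rw [hS₀]
      split_ifs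
      · exact Finset.Subset.refl _
      · exact Finset.empty_subset _
    have hS₀c : ∀ v ∈ D, cf D η S₀ v = c := by
      intro v hv
      unfold cf
      rw [if_pos hv, hS₀]
      cases c <;> simp [hv]
    set F : Pt → Set Pt := fun q => {v | v ∉ D ∧ Conn z R (cf D η S₀) (H161.cor (!c) v) q} with hFq
    -- the event
    have hev : ∀ S ⊆ D, cf D η S ∈ T2 D c z r R h → ∃ q ∈ P, ∃ ea,
        Mb (Bq z R) (Nbr (↑(Bq z r)) (F q) h) (h + 1) l (D ∩ Bq z R) ea (cf D η S) := by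
      rintro S hS ⟨em, el, hm, hl', hlm, U, hU, hUl, i, hi, w, hw, hn, s, hs1, hs2, hs3⟩
      have hcol : ∀ v ∈ Bq z R, v ∉ D → ∀ T, cf D η T v = !c := by
        intro v hv hvD T
        rw [cf_out hvD]
        have := hF.col v hv hvD
        revert this
        cases η v <;> cases c <;> simp
      have hwr : w ∈ Bq z r := by
        obtain ⟨l', -, p, -, hp2, -, hp4⟩ := hn
        rw [← hp2]
        exact Finset.mem_coe.1 (hp4 l' le_rfl)
      have hwD : w ∉ D := fun h' => hw (Finset.mem_coe.2 h')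
      have hwR : w ∈ Bq z R := Finset.mem_coe.1 (hBB (Finset.mem_coe.2 hwr))
      have hmS := str_xt (mem_E0.1 hm).2 (cf D η S)
      have hside : ∀ v ∈ Bq z R, v ∉ D → ∀ s', Cor v s' → (s'.1 + s'.2) % 2 = pr (!c) →
          U s' = U (H161.cor (!c) v) := by
        intro v hv hvD s' h1 h2
        obtain ⟨h3, h4⟩ := cor_co (!c) v
        exact hU.cor (Finset.mem_coe.2 hv) (hmS.thru (Finset.mem_coe.2 hv)) h1 h3
          (by rw [hcol v hv hvD]; exact h2) (by rw [hcol v hv hvD]; exact h4)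
      obtain ⟨q, hq, hconn⟩ := hF.con S₀ hS₀D w hwD (by
        rw [mem_Bq] at hwr
        simp only [nm, Prod.fst_sub, Prod.snd_sub, max_le_iff, abs_le]
        omega)
      rw [hcol w hwR hwD] at hconn
      have hUq : U (H161.cor (!c) w) = U q := (conn_off hS₀c hmS hU (cor_co (!c) w).2 hconn).1
      refine ⟨q, hq, el, M2.mb (ex_box z R) hbig hB' (fun v hv hvD => ?_) hm hl' hlm hU hUl hi
        (show w ∈ F q from ⟨hwD, hconn⟩) hn ?_⟩
      · rw [hcol v hv hvD]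
        cases c <;> simp
      · rintro w' ⟨hw'D, hw'c⟩ hw'B
        refine ⟨H161.cor (!c) w', (cor_co _ _).1, ?_⟩
        rw [(conn_off hS₀c hmS hU (cor_co (!c) w').2 hw'c).1, ← hUq, ← hside w hwR hwD s hs1 hs2]
        exact hs3
    have h1 : ∀ q ∈ P, FK.Ex Q D η (fun ω => G ω * {ω | ∃ ea, Mb (Bq z R)
        (Nbr (↑(Bq z r)) (F q) h) (h + 1) l (D ∩ Bq z R) ea ω}.indicator 1 ω) ≤
        Ca * ((((h : ℤ) + 1 : ℤ) : ℝ) / l) ^ α *
          FK.Ex Q D η (fun ω => G ω * (En (Bq z R) (↑(Bq z r)) ω : ℝ)) := fun q _ =>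
      mb_law hQ hCa.le hdec (r := h + 1) (R := l) (by omega) hbig.le Nbr_sub hBB hB' hη
        (fun x hx => N.H640.fz_shift hFz (by
          rw [Finset.mem_coe, mem_Bq] at hx
          have : nm (x - z) ≤ r := by
            simp only [nm, Prod.fst_sub, Prod.snd_sub, max_le_iff, abs_le]
            omega
          omega)) hG0 hG
    have h2 := hent z r R' R hr hκR hR D η hη P hF.con (N.H640.fz_le hFz (by omega)) G hG0
      (fun ω ω' hw => hG ω ω' fun v hv =>
      hw v fun hv' => hv (by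
        rw [Finset.mem_inter] at hv' ⊢
        refine ⟨hv'.1, ?_⟩
        have h3 := hv'.2
        rw [mem_bxx] at h3
        rw [mem_Bq]
        simp only [nm, Prod.fst_sub, Prod.snd_sub, max_le_iff, abs_le] at h3
        omega))
    have h3 : FK.Ex Q D η (fun ω => G ω * (En (Bq z R) (↑(Bq z r)) ω : ℝ)) ≤
        4 * 2 ^ P.card * FK.Ex Q D η G := by
      refine le_trans (Ex_mono hQ0 fun S _ => mul_le_mul_of_nonneg_left ?_ (hG0 _)) h2
      have h4 : (En (Bq z R) (↑(Bq z r)) (cf D η S) : ℝ) ≤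
          ((QC.Ent z r R (cf D η S)).ncard : ℝ) := by exact_mod_cast en_le z r R _
      refine h4.trans ?_
      have h5 : (QC.Ent z r R (cf D η S)).ncard ≤ (QC.Ent z r R (cf D η S)).ncard ^ 2 :=
        Nat.le_self_pow (by norm_num) _
      exact_mod_cast h5
    have hlR : ((h : ℝ) + 1) / l ≤ 4 * (((h : ℝ) + 1) / R) := by
      have hl0 : (0 : ℝ) < l := by exact_mod_cast (by omega : 0 < l)
      rw [mul_div_assoc', div_le_div_iff₀ hl0 hR0]
      have h5 : (R : ℝ) ≤ 4 * l := by exact_mod_cast (by omega : R ≤ 4 * l)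
      have h6 := mul_le_mul_of_nonneg_left h5 (by positivity : 0 ≤ (h : ℝ) + 1)
      linarith
    have h4 : (((h : ℝ) + 1) / l) ^ α ≤ 4 ^ α * (((h : ℝ) + 1) / R) ^ α := by
      rw [← Real.mul_rpow (by norm_num) hx0]
      refine Real.rpow_le_rpow (div_nonneg (by positivity) ?_) hlR hα.le
      exact_mod_cast (by omega : 0 ≤ l)
    push_cast at h1
    have hE2 : 0 ≤ FK.Ex Q D η (fun ω => G ω * (En (Bq z R) (↑(Bq z r)) ω : ℝ)) :=
      Ex_nonneg hQ0 fun _ _ => mul_nonneg (hG0 _) (by positivity)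
    have hsum : FK.Ex Q D η (fun ω => G ω * (T2 D c z r R h).indicator 1 ω) ≤
        ∑ q ∈ P, FK.Ex Q D η (fun ω => G ω * {ω | ∃ ea, Mb (Bq z R)
          (Nbr (↑(Bq z r)) (F q) h) (h + 1) l (D ∩ Bq z R) ea ω}.indicator 1 ω) := by
      rw [← Ex_sum]
      refine Ex_mono hQ0 fun S hS => ?_
      rw [← Finset.mul_sum]
      refine mul_le_mul_of_nonneg_left ?_ (hG0 _)
      by_cases hm : cf D η S ∈ T2 D c z r R h
      · obtain ⟨q, hq, ea, hea⟩ := hev S hS hm
        rw [Set.indicator_of_mem hm, Pi.one_apply]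
        refine le_trans (le_of_eq ?_) (Finset.single_le_sum (f := fun q =>
          ({ω | ∃ ea, Mb (Bq z R) (Nbr (↑(Bq z r)) (F q) h) (h + 1) l (D ∩ Bq z R) ea
            ω}.indicator (1 : Cfg → ℝ) (cf D η S))) (fun i _ => ind_nonneg _ _) hq)
        show _ = ({ω | ∃ ea, Mb (Bq z R) (Nbr (↑(Bq z r)) (F q) h) (h + 1) l (D ∩ Bq z R) ea
            ω}.indicator (1 : Cfg → ℝ) (cf D η S))
        rw [Set.indicator_of_mem (show cf D η S ∈ {ω | ∃ ea, Mb (Bq z R)
          (Nbr (↑(Bq z r)) (F q) h) (h + 1) l (D ∩ Bq z R) ea ω} from ⟨ea, hea⟩)]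
        rfl
      · rw [Set.indicator_of_notMem hm]
        exact Finset.sum_nonneg fun i _ => ind_nonneg _ _
    have hcard : (P.card : ℝ) ≤ 2 ^ P.card := by
      exact_mod_cast (Nat.lt_two_pow_self (n := P.card)).le
    have hmul : (P.card : ℝ) * 2 ^ P.card ≤ 4 ^ P.card := by
      calc (P.card : ℝ) * 2 ^ P.card ≤ 2 ^ P.card * 2 ^ P.card :=
            mul_le_mul_of_nonneg_right hcard (by positivity)
        _ = 4 ^ P.card := by rw [← mul_pow]; norm_num
    calc FK.Ex Q D η (fun ω => G ω * (T2 D c z r R h).indicator 1 ω)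
        ≤ ∑ q ∈ P, FK.Ex Q D η (fun ω => G ω * {ω | ∃ ea, Mb (Bq z R)
          (Nbr (↑(Bq z r)) (F q) h) (h + 1) l (D ∩ Bq z R) ea ω}.indicator 1 ω) := hsum
      _ ≤ ∑ q ∈ P, Ca * (((h : ℝ) + 1) / l) ^ α *
          FK.Ex Q D η (fun ω => G ω * (En (Bq z R) (↑(Bq z r)) ω : ℝ)) :=
          Finset.sum_le_sum h1
      _ = P.card * (Ca * (((h : ℝ) + 1) / l) ^ α *
          FK.Ex Q D η (fun ω => G ω * (En (Bq z R) (↑(Bq z r)) ω : ℝ))) := by
          rw [Finset.sum_const, nsmul_eq_mul]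
      _ ≤ P.card * (Ca * (4 ^ α * (((h : ℝ) + 1) / R) ^ α) *
          (4 * 2 ^ P.card * FK.Ex Q D η G)) := by
          refine mul_le_mul_of_nonneg_left ?_ (Nat.cast_nonneg _)
          exact mul_le_mul (mul_le_mul_of_nonneg_left h4 (by positivity)) h3 hE2 (by positivity)
      _ = (P.card * 2 ^ P.card) * (4 * Ca * 4 ^ α * ((((h : ℝ) + 1) / R) ^ α *
          FK.Ex Q D η G)) := by ring
      _ ≤ 4 ^ P.card * (4 * Ca * 4 ^ α * ((((h : ℝ) + 1) / R) ^ α * FK.Ex Q D η G)) :=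
          mul_le_mul_of_nonneg_right hmul (by positivity)
      _ ≤ _ := by
          have : 0 ≤ 4 ^ α * 4 ^ P.card * (((h : ℝ) + 1) / R) ^ α * FK.Ex Q D η G := by positivity
          nlinarith
  · -- trivial bound
    have h1 : FK.Ex Q D η (fun ω => G ω * (T2 D c z r R h).indicator 1 ω) ≤ FK.Ex Q D η G := by
      refine Ex_mono hQ0 fun S _ => ?_
      refine mul_le_of_le_one_right (hG0 _) ?_
      by_cases h1 : cf D η S ∈ T2 D c z r R h
      · rw [Set.indicator_of_mem h1]; simp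
      · rw [Set.indicator_of_notMem h1]; norm_num
    refine h1.trans ?_
    have h2 : 1 ≤ 4 ^ α * (((h : ℝ) + 1) / R) ^ α := by
      rw [← Real.mul_rpow (by norm_num) hx0]
      refine Real.one_le_rpow ?_ hα.le
      rw [mul_div_assoc', one_le_div hR0]
      have h5 : R ≤ 4 * ((h : ℤ) + 1) := by omega
      have h6 : (R : ℝ) ≤ 4 * ((h : ℝ) + 1) := by exact_mod_cast h5
      exact h6
    have h3 : 0 ≤ 4 * Ca * 4 ^ α * (4 ^ P.card * (((h : ℝ) + 1) / R) ^ α *
      FK.Ex Q D η G) := by positivity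
    have h4 : FK.Ex Q D η G ≤ (4 ^ α * (((h : ℝ) + 1) / R) ^ α) * (4 ^ P.card * FK.Ex Q D η G) := by
      have h5 : FK.Ex Q D η G ≤ 4 ^ P.card * FK.Ex Q D η G := le_mul_of_one_le_left hE0 h2P
      exact h5.trans (le_mul_of_one_le_left (by positivity) h2)
    linarith

end Vale.Agent.P167.N.H476.Q
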